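import Vale.Agent.P236JG.Dat
import Vale.Agent.P236JT.Fa

/-!
# P236TH / FjA : finite checks for level 10
-/

namespace Vale.Agent.P236TH

open Vale.Agent.P236KE Vale.Agent.P236K3 Vale.Agent.P236JX Vale.Agent.P236JT Vale.Agent.P236JG
open Vale.Agent.P236F

def l329 : List (List Tr) := [[⟨82, 1, 0, 0, 0, 1⟩, ⟨47, 0, 1, 1, 0, 1⟩, ⟨78, 0, 3, 0, 0, 1⟩,
  ⟨14, 1, 2, 1, 0, 2⟩, ⟨76, 0, 4, 0, 0, 1⟩, ⟨79, 2, 2, 0, 0, 2⟩, ⟨16, 0, 5, 0, 0, 1⟩,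
  ⟨74, 2, 4, 0, 0, 2⟩, ⟨40, 0, 7, 0, 0, 2⟩, ⟨8, 1, 5, 2, 0, 2⟩, ⟨68, 1, 7, 0, 0, 2⟩,
  ⟨62, 0, 7, 2, 0, 1⟩, ⟨36, 2, 5, 2, 0, 2⟩, ⟨66, 0, 8, 1, 0, 1⟩, ⟨3, 0, 8, 2, 0, 1⟩,
  ⟨64, 0, 9, 1, 0, 2⟩, ⟨5, 0, 10, 1, 0, 2⟩, ⟨65, 2, 8, 1, 0, 1⟩, ⟨38, 0, 11, 0, 0, 2⟩,
  ⟨32, 0, 11, 1, 0, 2⟩, ⟨66, 1, 11, 0, 0, 1⟩, ⟨37, 2, 11, 0, 0, 2⟩, ⟨32, 1, 14, 0, 0, 1⟩]]

theorem c74 : eJ.geF 6 20 [(0, 0)] [(3, 3)] [(0, 0)] [(3, 3)] [] = true := by decide +kernel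
theorem h74 : eJ.htAF 6 20 0 9 = true := by decide +kernel

theorem c329 : (eY eJ).geF 15 86 [(0, 0)] [(3, 3)] [(0, 0)] [(3, 3)] l329 = true := by
  decide +kernel
theorem h329 : (eY eJ).htAF 15 86 0 62 = true := by decide +kernel
theorem k329 : WJ.lfK eJ 15 84 [(0, 0)] [(3, 3)]
    (fun m => (WJ.nm (eY eJ) 15 86 [(0, 0)] [(3, 3)] m).cjy eJ 15) [] l329 [] = true := by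
  decide +kernel

end Vale.Agent.P236TH
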