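import Vale.Agent.P236JG.Dat
import Vale.Agent.P236JT.Fa

/-!
# P236TH / FjB : finite checks for level 10
-/

namespace Vale.Agent.P236TH

open Vale.Agent.P236KE Vale.Agent.P236K3 Vale.Agent.P236JX Vale.Agent.P236JT Vale.Agent.P236JG
open Vale.Agent.P236F

def l222J : List (List Tr) := [[⟨3, 1, 9, 0, 0, 1⟩], [⟨4, 2, 5, 1, 0, 1⟩], [⟨3, 0, 6, 1, 0, 1⟩],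
  [⟨7, 0, 4, 1, 0, 1⟩, ⟨5, 0, 5, 1, 0, 1⟩],
  [⟨1, 2, 0, 3, 0, 1⟩, ⟨0, 2, 7, 1, 0, 1⟩, ⟨1, 1, 10, 0, 0, 1⟩],
  [⟨6, 1, 1, 2, 0, 1⟩, ⟨5, 0, 5, 1, 0, 2⟩],
  [⟨2, 0, 0, 3, 0, 1⟩, ⟨0, 0, 1, 3, 0, 2⟩, ⟨2, 1, 3, 2, 0, 1⟩, ⟨0, 1, 4, 2, 0, 2⟩,
    ⟨1, 0, 7, 1, 0, 1⟩, ⟨0, 2, 7, 1, 0, 1⟩, ⟨1, 1, 10, 0, 0, 1⟩],
  [⟨13, 0, 1, 0, 0, 1⟩], [⟨14, 0, 0, 0, 0, 1⟩, ⟨5, 0, 5, 1, 0, 2⟩]]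

def l267 : List (List Tr) := [[⟨3, 1, 11, 0, 0, 1⟩],
  [⟨6, 1, 6, 1, 0, 1⟩, ⟨0, 1, 6, 2, 0, 1⟩, ⟨1, 0, 9, 1, 0, 1⟩, ⟨5, 0, 10, 0, 0, 2⟩],
  [⟨4, 1, 4, 2, 0, 1⟩, ⟨0, 1, 6, 2, 0, 1⟩, ⟨1, 0, 9, 1, 0, 1⟩, ⟨5, 0, 10, 0, 0, 2⟩],
  [⟨0, 0, 3, 3, 0, 2⟩, ⟨1, 0, 9, 1, 0, 2⟩, ⟨5, 0, 10, 0, 0, 2⟩],
  [⟨12, 1, 3, 0, 0, 1⟩, ⟨0, 0, 3, 3, 0, 2⟩, ⟨4, 1, 4, 2, 0, 1⟩, ⟨6, 1, 6, 1, 0, 1⟩,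
    ⟨0, 1, 6, 2, 0, 2⟩, ⟨1, 0, 9, 1, 0, 1⟩, ⟨3, 1, 11, 0, 0, 1⟩]]

theorem c222 : eJ.geF 10 58 [(0, 0)] [(3, 3)] [(0, 0)] [(3, 3)] l222J = true := by decide +kernel
theorem h226 : eJ.htAF 10 59 0 42 = true := by decide +kernel
theorem m226 : WJ.lfM eJ 10 59 [(0, 0)] [(3, 3)]
    (fun m => (WJ.nm eJ 10 58 [(0, 0)] [(3, 3)] m).cvm eJ 90 10 1) l222J [] = true := by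
  decide +kernel

theorem s267 : chF eJ 13 70 [(0, 4)]
    [([(0, 0)], [(3, 3)], [(0, 0)]), ([(0, 3)], [(3, 6)], [(0, 1)])] = true := by decide +kernel
theorem c267 : eJ.geF 13 70 [(0, 4)] [(3, 7)] [(0, 0)] [(3, 3)] l267 = true := by decide +kernel
theorem h342 : eJ.htAF 14 89 0 66 = true := by decide +kernel
theorem m342 : WJ.lfM eJ 14 89 [(0, 0)] [(3, 3)]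
    (fun m => (WJ.nm eJ 13 70 [(0, 0)] [(3, 3)] m).cgm eJ 90 13 (3 ^ 0) 4) l267 [] = true := by
  decide +kernel

end Vale.Agent.P236TH
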