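import Vale.Agent.P236TH.FjA
import Vale.Agent.P236TH.FjB
import Vale.Agent.P236JG.Base
import Vale.Agent.P236SY.KF

/-!
# P236TH / Fj : four facts for level 10
-/

noncomputable section

namespace Vale.Agent.P236TH

open Vale.Agent.P251.F Vale.Agent.P251.I Vale.Agent.P236SY Vale.Agent.P236R Vale.Agent.P236EL
open Vale.Agent.P236KE Vale.Agent.P236K3 Vale.Agent.P236JX Vale.Agent.P236JT Vale.Agent.P236JG
open Vale.Agent.P236F Vale.Agent.P236KE.S90

variable [Fact (Nat.Prime 3)] {t : Cob Laz 1} (h : HK)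
include h

theorem v74 : VS 20 6 := by
  have h1 := van (wxS h) c74 h74
  rwa [P236JG.degS] at h1

theorem v222 (ht : IsT1 3 t) :
    ∀ Y ∈ ZS 58 10, lc _ (show 0 + 10 = 10 from rfl) v1 Y ∈ BS 59 10 := fun Y hY => by
  have H := wxS h
  obtain ⟨u, hu, h1⟩ := rep0 H c222 (x := Y) (by rwa [P236JG.degS])
  have h2 := ((lf_nm (H.cx.ok 10) 58 _ _).v1 H ht (show 0 + 10 = 10 from rfl)).memB H (hv H h226) m226 h1 hu
  rwa [P236JG.degS] at h2

theorem k267 {x : Cob Laz 1} {c : Cob Laz 2} (hx : Grk 0 5 x c) :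
    ∀ G ∈ ZS 70 13, lc _ (show 1 + 13 = 14 from rfl) x G ∈ BS 89 14 := fun G hG => by
  have H := wxS h
  obtain ⟨u, hu, h1⟩ := (ajCh H s267 (rep H c267)).all G (by rwa [P236JG.degS])
  have h2 := ((lf_nm (H.cx.ok 13) 70 _ _).gm H hx (show 1 + 13 = 14 from rfl)).memB H (hv H h342) m342 h1 hu
  rwa [P236JG.degS] at h2

theorem j329 (ht : IsT1 3 t) : InjJ t 86 84 15 := fun G hG h0 => by
  have H := wxY h ht
  obtain ⟨u, hu, h1⟩ := rep0 H c329 (x := G) (by rwa [degY])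
  rcases ((lf_nm (H.cx.ok 15) 86 _ _).jy (w3 h ht)).inj (wxS h) k329 hu with rfl | h2
  · have h3 := H.memB (l := []) h1 (by decide +kernel) (hv H h329)
    rwa [degY] at h3
  · exact (h2 G h1 (by rwa [P236JG.degS])).elim

end Vale.Agent.P236TH

end
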