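import Vale.Agent.P236TH.L10
import Vale.Agent.P236TH.Fj
import Vale.Agent.P236JT.F35
import Vale.Agent.P236SY.K322

/-!
# P236TH / F10 : the facts for level 10
-/

namespace Vale.Agent.P236TH

open Vale.Agent.P251.F Vale.Agent.P251.I Vale.Agent.P236SY Vale.Agent.P236R Vale.Agent.P236EL
open Vale.Agent.P236JG Vale.Agent.P236F

theorem f10 [Fact (Nat.Prime 3)] {t : Cob Laz 1} (h : HK) (ht : IsT1 3 t) : F10 t :=
  ⟨v74 h, v222 h ht, P236JT.c343 h ht, k267 h, P236SY.k322 h ht, j329 h ht⟩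

end Vale.Agent.P236TH
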