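import Vale.Agent.P236TP.Top
import Vale.Agent.P236TH.F10
import Vale.Agent.P236TD.KfJ
import Vale.Agent.P236TD.GenJ
import Vale.Agent.P236LL.Lf
import Vale.Agent.P236R.T275J
import Vale.Agent.P236R.K291
import Vale.Agent.P236R.P303
import Vale.Agent.P236R.RfS
import Vale.Agent.P236JX.Phi
import Vale.Agent.P236LB.Kap

/-!
# P236TH / Top : the final statement from the curvature of the lifted resolution
-/

namespace Vale.Agent.P236TH

open Vale.Agent.P251.F Vale.Agent.P251.I Vale.Agent.P236SY Vale.Agent.P236R Vale.Agent.P236EL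
open Vale.Agent.P236JG Vale.Agent.P236F Vale.Agent.P236LB

theorem rf [Fact (Nat.Prime 3)] {t : Cob Laz 1} (h : HK) (ht : IsT1 3 t) : RF t :=
  ⟨P236TD.gen h ht, k291_hk ht h, p303 ht h, P236LB.kap ht h, P236JX.phi h ht, rf_g58 ht,
    rf_v189 ht, rf_e189 ht, rf_l142 ht, rf_n224 ht, rf_l225 ht, rf_vx ht, rf_c10 ht, rf_vz ht,
    tf_i227 ht⟩

theorem full_of_hk (h : HK) : P236K.FULL :=
  haveI : Fact (Nat.Prime 3) := ⟨Nat.prime_three⟩
  P236TP.full_of_facts (fun _ ht => f10 h ht) (fun _ ht => P236TD.kf h ht) (fun _ ht => lf ht h)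
    (fun _ ht => g228 ht h) fun _ ht => rf h ht

end Vale.Agent.P236TH
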