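import Vale.Agent.P251.F.Detect
import Vale.Agent.P236R.Fx

/-!
# P236TH / C3 : detection by an automorphism of order three
-/

noncomputable section

namespace Vale.Agent.P236TH

open Vale.Agent.P251.F Vale.Agent.P251.I Vale.Agent.P236EL Vale.Agent.P236SY Vale.Agent.P236F
open Vale.Agent.P236R Vale.Agent.P217

theorem exists_cyc {p : ℕ} [hp : Fact p.Prime] (hp2 : p ≠ 2) {t : Cob Laz 1} (ht : IsT1 p t) :
    ∃ (k : Type) (_ : Field k) (_ : CharP k p) (_ : ZMod p →+* k) (R : CycRep p Laz k),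
      R.E t ![0, 1] ≠ 0 := by
  have hh : 1 ≤ p - 1 := by have := hp.out.two_le; omega
  let k : Type := GaloisField p (p - 1)
  have hk : Nat.card k = p ^ (p - 1) := GaloisField.card p (p - 1) (by omega)
  have hfin : Finite k := Nat.finite_of_card_ne_zero (by
    rw [hk]; exact pow_ne_zero _ hp.out.ne_zero)
  let κ : ZMod p →+* k := algebraMap (ZMod p) k
  obtain ⟨Γ, hΓ⟩ := exists_isHonda (p := p) hh
  obtain ⟨Hl, hHl, hlog⟩ := hΓ.exists_logL hh
  let Ht : Law ℤ_[p] := ⟨Hl, IsHonda.lift_commL hlog⟩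
  let H : Law k := Ht.map (κ.comp PadicInt.toZMod)
  have hH : H.toFG = Γ.map κ := by
    rw [← hHl]
    apply FormalGroup.ext
    ext d
    rfl
  have hover : HondaOver p (p - 1) H.toFG := by
    rw [hH]
    exact hondaOver_of_isHonda hΓ hh hk κ
  obtain ⟨σ, hσ, hσ1, hσ2⟩ := hover.exists_orderOf_cf hp2 hk
  let R : CycRep p Laz k := CycRep.ofAut LawRing.epi_laz (Laz.lift H) H (Laz.univ_map_lift H) σ hσ
    (by rw [hσ1 1 hp.out.one_lt, if_pos rfl])
  have hg : ((R.ch ![0, 1]).g 1).val = σ.val := by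
    change (σ ^ (1 - 0 : ZMod p).val).val = σ.val
    have : Fact (1 < p) := ⟨hp.out.one_lt⟩
    rw [sub_zero, ZMod.val_one, pow_one]
  refine ⟨k, inferInstance, inferInstance, κ, R, fun h => hσ2 (neg_eq_zero.1 ?_)⟩
  rwa [CycRep.E, ev_t1_aut hp2 ht κ Ht (fun d hd => lift_coeff_eq_zero hh hlog d hd)
    (R.ch ![0, 1]) (Laz.univ_map_lift H) (fun i hi => by rw [hg]; exact hσ1 i hi), hg] at h

variable [Fact (Nat.Prime 3)] {k : Type} [Field k] (R : CycRep 3 Laz k)

theorem val_add : ∀ (K : ℕ) (F G : (Fin (2 * K + 1) → ZMod 3) → k),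
    Cyc.val K (F + G) = Cyc.val K F + Cyc.val K G
  | 0, _, _ => rfl
  | K + 1, F, G => by
    rw [Cyc.val, Cyc.val, Cyc.val, ← val_add K]
    exact congrArg _ (funext fun a => Finset.sum_add_distrib)

/-- the value on the generating cycle -/
def ph (K : ℕ) : Cob Laz (2 * K) →+ k :=
  AddMonoidHom.mk' (fun z => Cyc.val K (R.E z)) fun x y => by
    rw [← val_add]
    exact congrArg _ (funext fun a => map_add _ _ _)

/-- the value in degree two -/
def lam (b : Cob Laz 2) : k := Cyc.cval (R.E b)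

theorem ph_cup (K : ℕ) (h : 2 * K + 2 = 2 * (K + 1)) (x : Cob Laz (2 * K)) (b : Cob Laz 2) :
    ph R (K + 1) (cupE h x b) = ph R K x * lam R b :=
  Cyc.val_cup K (R.E_inv b) fun u => R.E_cup x b u

theorem ph_one (b : Cob Laz 2) : ph R 1 b = lam R b := by
  have h := ph_cup R 0 rfl 1 b
  rwa [one_cupE, show ph R 0 1 = 1 from map_one (Cob.ev _), one_mul] at h

theorem ph_two (h : 2 + 2 = 4) (a b : Cob Laz 2) : ph R 2 (cupE h a b) = lam R a * lam R b :=
  (ph_cup R 1 rfl a b).trans (by rw [ph_one])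

theorem ph_three (h : 2 + 4 = 6) (h' : 2 + 2 = 4) (a b c : Cob Laz 2) :
    ph R 3 (cupE h a (cupE h' b c)) = lam R a * lam R b * lam R c := by
  rw [← cupE_assoc h' (show 4 + 2 = 6 from rfl), ← ph_two R h']
  exact ph_cup R 2 rfl _ c

theorem ph_four (h : 2 + 6 = 8) (h' : 2 + 4 = 6) (h'' : 2 + 2 = 4) (a b c e : Cob Laz 2) :
    ph R 4 (cupE h a (cupE h' b (cupE h'' c e))) = lam R a * lam R b * lam R c * lam R e := by
  rw [← cupE_assoc h'' (show 4 + 2 = 6 from rfl), ← cupE_assoc h' (show 6 + 2 = 8 from rfl),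
    ← ph_three R h' h'']
  exact ph_cup R 3 rfl _ e

theorem lam_Bt (κ : ZMod 3 →+* k) {t : Cob Laz 1} (ht : IsT1 3 t) (j : ℕ) :
    lam R (P236K.Bt t j) = -R.E t ![0, 1] ^ 3 ^ (j + 1) := by
  have h1 : ∀ u : ZMod 3, R.E (P236K.Bt t j) ![0, u, u + 1] =
      κ (u + u ^ 2) * R.E t ![0, 1] ^ 3 ^ (j + 1) := fun u => by
    have h2 := R.E_cocycle (d_t ht) κ fun i => ![0, u, u + 1] (Fin.succAbove (2 : Fin 3) i)
    have h3 := R.E_cocycle (d_t ht) κ fun i => ![0, u, u + 1] (Fin.succAbove (0 : Fin 3) i)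
    rw [CycRep.E, ← R.ch_res, ← Cob.ev_map_res] at h2 h3
    change _ = κ (u - 0) * _ at h2
    change _ = κ (u + 1 - u) * _ at h3
    rw [CycRep.E, P236K.Bt, P236K.e01, P236K.e12]
    simp only [map_add, map_mul, map_pow, h2, h3, sub_zero, add_sub_cancel_left, map_one, one_mul,
      mul_pow]
    rw [← map_pow κ, ZMod.pow_card_pow, pow_succ 3, pow_mul]
    ring
  rw [lam, Cyc.cval, Finset.sum_congr rfl fun u _ => h1 u, ← Finset.sum_mul, ← map_sum,
    show ∑ u : ZMod 3, (u + u ^ 2) = -1 from (Fin.sum_univ_three _).trans rfl, map_neg, map_one,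
    neg_one_mul]

variable [CharP k 3]

/-- coboundaries modulo three have the value zero -/
theorem ph_bs (K : ℕ) {w : ℤ} {F : Fin 1 → Cob Laz (2 * (K + 1))} (h : F ∈ BS w (2 * (K + 1))) :
    ph R (K + 1) (F 0) = 0 := by
  obtain ⟨y, -, u, -, rfl⟩ := (mem_BQ_succ (s := 2 * K + 1)).1 h
  rw [Pi.add_apply, map_add, Pi.smul_apply, map_nsmul, nsmul_eq_mul, CharP.cast_eq_zero, zero_mul,
    add_zero, DD_zero]
  exact (congrArg _ (R.E_d _)).trans (Cyc.val_dd K (R.E_inv _))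

end Vale.Agent.P236TH

end
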