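import Vale.Agent.P236TH.Fr
import Vale.Agent.P236EL.Ck
import Vale.Agent.P236K3.Bz1

/-!
# P236TH / Fa : the computed facts about levels
-/

noncomputable section

namespace Vale.Agent.P236TH

open Vale.Agent.P251.F Vale.Agent.P251.I Vale.Agent.P236EL Vale.Agent.P236SY Vale.Agent.P236F
open Vale.Agent.P236R Vale.Agent.P236KE Vale.Agent.P236K3 Vale.Agent.P236KE.S90 AddSubgroup
open MvPolynomial Ch

variable [Fact (Nat.Prime 3)] {s s' T T' a b k : ℕ} {F G : Fin 1 → Cob Laz s} {v : WC'}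
  {t : Cob Laz 1}

theorem Lv.rc (h : Lv s k T F) : Rc rS 0 s T k k F 0 := by
  obtain ⟨h1, y, hy, h2⟩ := h
  exact ⟨h1, y, hy, .of_Fl (sub_mem h1 (bz hy)).1 le_rfl h2⟩

theorem lv_of (h : Rc rS 0 s T k b F 0) : Lv s k T F := ⟨h.zc, h.ex.imp fun _ h => ⟨h.1, h.2.fl⟩⟩

theorem Lv.skip (hT : T' ≤ 90) (hc : WC'.vaC (dS T') s T a b = true) (h : Lv s a T F) :
    Lv s b T F := (wS T' hT).skipA hc (fun _ => lv_of) F h.rc

theorem lv_mem (hT : T' ≤ 90) {l : List WC'} {𝒵 : AddSubgroup (Fin 1 → Cob Laz s)}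
    (h : CS T' s F v) (hl : CL rS 0 (dS T') iS 𝒵 l) (hc : WC'.inC (dS T') s T k l v = true) :
    ∃ z ∈ 𝒵, Lv s k T (F - z) := by
  have H := wS T' hT
  obtain ⟨z, hz, h1⟩ := H.rc_mem h hl hc
  obtain ⟨h2, -, h3, -⟩ := H.bnd hc
  exact ⟨z, hz, lv_of (H.wd.up (by omega) h3 h1 (by omega) (by omega) le_rfl (zero_mem _))⟩

theorem lv_hi (hT : T' ≤ 90) (h : CS T' s F v) (hc : WC'.hiC (dS T') s T k v = true) :
    Lv s k T F := by
  obtain ⟨_, rfl, h1⟩ := lv_mem (𝒵 := ⊥) hT h .nil hc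
  rwa [sub_zero] at h1

omit [Fact (Nat.Prime 3)] in
theorem zs_Bt (ht : IsT1 3 t) (j : ℕ) {w : ℤ} (e : w = 3 ^ (j + 1)) :
    (fun _ => P236K.Bt t j) ∈ ZS w 2 := zs_iff.2 ⟨e ▸ P236K.isWt_Bt ht j, three_dvd_d_Bt ht j⟩

omit [Fact (Nat.Prime 3)] in
theorem Bt_eq (j : ℕ) : P236K.Bt t j = Cob.cup (t ^ (2 * 3 ^ j)) (t ^ 3 ^ j) +
    Cob.cup (t ^ 3 ^ j) (t ^ (2 * 3 ^ j)) := by
  have h1 : Cob.front 1 1 = Fin.succAbove (2 : Fin 3) := funext fun i => by fin_cases i <;> rfl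
  have h2 : Cob.back 1 1 = Fin.succAbove (0 : Fin 3) := funext fun i => by fin_cases i <;> rfl
  simp only [Cob.cup, h1, h2, P236K.Bt, P236K.e01, P236K.e12, map_pow]
  ring

section

variable {G : ℕ → Type} [∀ q, Fintype (G q)] [DecidableEq (G 0)] {R : Rs 3 K G}
  {θ : G 0 → G 0 → Cob Laz 1} {D : KD} {ix : ∀ q, G (q + 1) → ℕ} {Tm s3 s4 : ℕ}
  (H : Wx R θ D ix Tm s3 s4) {x y : G 0 → Cob Laz s}

include H

/-- the top level is a line -/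
theorem top_line (l : List Tr) (h1 : WC'.glC D s T k (k + 2) (k + 5) l = true)
    (h2 : WC'.vaC D s T (k + 3) (T + 1) = true) (hx : Rc R θ s T (k + 2) (k + 2) x 0)
    (hy : Rc R θ s T (k + 2) (k + 2) y 0) (hy' : y ∉ BQ 3 θ (R.deg 0) T 3 s) :
    x ∈ zmultiples y ⊔ BQ 3 θ (R.deg 0) T 3 s := by
  obtain ⟨hs, -, hw, -⟩ := H.bnd h1
  have h3 := H.gl (by omega) le_rfl le_rfl h1
  obtain ⟨_, ⟨c, rfl⟩, h4⟩ := H.wd.lead (by omega) hw hy (by omega) le_rfl h3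
  refine H.al_of (H.wd.hi_step (by omega) hw (by omega) le_rfl le_rfl (h3.trans (sup_le_sup_right
    (zmultiples_le_of_mem (mem_of_zsmul (p := 3) (c := c) rfl ?_ ?_)) _))
    (H.top h2)) (fun _ h => h) x hx
  · rintro ⟨c, rfl⟩
    simp only [mul_comm _ c, mul_smul] at h4
    rw [p_zsmul rfl, smul_zero] at h4
    exact hy' (by simpa using H.wd.mem (𝒵 := ⊥) (by omega) hw h4 le_rfl (zero_mem _) (H.top h2))
  · exact ⟨y, mem_zmultiples y, h4⟩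

/-- the product with `b_1` -/
theorem mul_b1 (ht : IsT1 3 t) (e : 2 + s = s') (h : CV R θ D ix s x v) :
    CV R θ D ix s' (lc _ e (P236K.Bt t 1) x) (WC'.op (D.L s') s 9 0 0 (WC'.bm D s 3) v) := by
  obtain rfl : s' = s + 2 := by omega
  have h0 := zs_Bt ht 1 (w := (9 : ℕ)) rfl
  refine H.lc h0 e (op_bm H.cx 3) (fun _ _ _ _ _ _ h1 h2 h3 h4 h5 => ?_) h
  rw [zero_add, zero_add, ← h3]
  refine h5.lc_bm (H.wd.ok' (by omega)) (h3 ▸ h2) e h4 (zs_iff.1 h0).1 ?_ (zs_iff.1 h0).2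
  rw [Bt_eq, map_add, rs_cup p3 (a := 1) (b := 1), rs_cup p3 (a := 1) (b := 1)]
  simp only [map_pow, rs_t1 p3 rfl ht, sh_arr, pow_one]

end

theorem f107 {F : Fin 1 → Cob Laz 1} (h : Lv 1 1 27 F) : Lv 1 6 27 F :=
  Lv.skip (T := 27) (T' := 27) (by decide) (by decide +kernel) h

theorem f106 {F : Fin 1 → Cob Laz 1} (h : Lv 1 6 27 F) :
    ∀ c ∈ ZS 27 2, DD 0 1 F = 3 • c → Lv 2 5 27 c :=
  have H := wbS 27 (by decide)
  H.wx.al (T := 27) (Q := fun F => ∀ c ∈ ZS 27 2, DD 0 1 F = 3 • c → Lv 2 5 27 c)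
    (fun _ _ h hc _ h1 h2 => lv_hi (T := 27) (by decide) (H.bock h 27 h1 h2) hc)
    (by decide +kernel) F (Lv.rc (T := 27) h)

theorem f103 (ht : IsT1 3 t) : ∃ u ∈ ZS 26 5, ∃ z ∈ zmultiples (lc _ (zero_add 5) v1 u),
    Lv 5 4 27 (lc _ (show 1 + 4 = 5 from rfl) (t ^ 9)
      (lc _ (show 2 + 2 = 4 from rfl) (P236K.Bt t 1) fun _ => P236K.Bt t 1) - z) := by
  have H := wS 27 (by decide)
  obtain ⟨u, h1, h2⟩ := H.named (s := 5) 26 0 [⟨9, 0, 0, 0, 0, 1⟩, ⟨7, 0, 1, 0, 0, 2⟩,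
    ⟨5, 0, 2, 0, 0, 1⟩] (by decide +kernel) (by decide +kernel)
  obtain ⟨z, hz, h3⟩ := lv_mem (T := 27) (k := 2) (by decide)
    (H.tm ht 9 (zs_nine ht) (show 1 + 4 = 5 from rfl) (mul_b1 H ht (show 2 + 2 = 4 from rfl)
      (CS.base (mul_b1 H ht (show 2 + 0 = 2 from rfl) (cs_one ht (by decide))))))
    (CL.one (H.v1 ht (zero_add 5) h2)) (by decide +kernel)
  exact ⟨u, h1, z, hz, Lv.skip (T := 27) (T' := 27) (by decide) (by decide +kernel) h3⟩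

theorem f311 (ht : IsT1 3 t) : ∀ F ∈ ZS 78 5, Lv 5 5 79 (lc _ (zero_add 5) v1 F) := by
  have H := wS 79 (by decide)
  have h1 : ∀ (F : Fin 1 → Cob Laz 5) v, CS 79 5 F v →
      WC'.hiC (dS 79) 5 79 2 (WC'.cvm (dS 79) 79 5 1 v) = true →
      Lv 5 5 79 (lc _ (zero_add 5) v1 F) := fun _ _ h hc =>
    Lv.skip (T := 79) (T' := 79) (by decide) (by decide +kernel)
      (lv_hi (by decide) (H.v1 ht _ h) hc)
  refine Al.all (R := rS) (T := 78) ?_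
  exact H.stepA [[⟨35, 0, 0, 0, 0, 1⟩]] (by decide +kernel) (H.sd (by decide) h1)
    (by decide +kernel) (H.al h1 (by decide +kernel))

theorem f315 {F : Fin 1 → Cob Laz 5} (h : Lv 5 6 80 F) : Lv 5 14 80 F :=
  Lv.skip (T := 80) (T' := 80) (by decide) (by decide +kernel) h

theorem f319 {F : Fin 1 → Cob Laz 5} (h : Lv 5 10 81 F) : Lv 5 16 81 F :=
  Lv.skip (T := 81) (T' := 81) (by decide) (by decide +kernel) h

theorem f318 {F : Fin 1 → Cob Laz 5} (h : Lv 5 16 81 F) :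
    ∀ c ∈ ZS 81 6, DD 0 5 F = 3 • c → Lv 6 18 81 c := by
  have H := wbS 81 (by decide)
  have h1 : ∀ (F : Fin 1 → Cob Laz 5) v, CS 81 5 F v →
      WC'.hiC (dS 81) 6 81 16 (WC'.cbk (dS 81) (bS 81) 5 81 v) = true →
      ∀ c ∈ ZS 81 6, DD 0 5 F = 3 • c → Lv 6 18 81 c := fun _ _ h hc _ h1 h2 =>
    Lv.skip (T := 81) (T' := 81) (by decide) (by decide +kernel)
      (lv_hi (by decide) (H.bock h 81 h1 h2) hc)
  exact H.wx.stepA [[⟨6, 1, 15, 0, 0, 1⟩, ⟨14, 6, 10, 0, 0, 2⟩, ⟨23, 15, 1, 0, 0, 1⟩]]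
    (by decide +kernel) (H.wx.sd (by decide) h1) (by decide +kernel)
    (H.wx.al h1 (by decide +kernel)) F (Lv.rc (T := 81) h)

theorem l318 {F G : Fin 1 → Cob Laz 6} (hF : Lv 6 18 81 F) (hG : Lv 6 18 81 G)
    (h : G ∉ BS 81 6) : F ∈ zmultiples G ⊔ BS 81 6 :=
  top_line (wS 81 (by decide)) (T := 81) (k := 16) [⟨0, 0, 18, 0, 0, 1⟩, ⟨0, 9, 6, 3, 0, 2⟩,
    ⟨3, 11, 4, 3, 0, 2⟩, ⟨6, 13, 2, 3, 0, 2⟩, ⟨14, 10, 8, 0, 0, 2⟩] (by decide +kernel)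
    (by decide +kernel) (Lv.rc (T := 81) hF) (Lv.rc (T := 81) hG) h

end Vale.Agent.P236TH

end
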