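import Vale.Agent.P236R.Fx

/-!
# P236TH / Fr : the Frobenius on cochains modulo three, and levels
-/

noncomputable section

namespace Vale.Agent.P236TH

open Vale.Agent.P251.F Vale.Agent.P251.I Vale.Agent.P236EL Vale.Agent.P236SY Vale.Agent.P236F
open Vale.Agent.P236R AddSubgroup

theorem three_dvd_sum {R ι : Type*} [CommRing R] (S : Finset ι) (f : ι → R) :
    (3 : R) ∣ ∑ i ∈ S, f i ^ 3 - (∑ i ∈ S, f i) ^ 3 := by
  classical
  induction S using Finset.induction_on with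
  | empty => simp
  | insert a S ha ih =>
    obtain ⟨c, hc⟩ := ih
    rw [Finset.sum_insert ha, Finset.sum_insert ha]
    generalize ∑ i ∈ S, f i = y at hc ⊢
    exact ⟨c - f a ^ 2 * y - f a * y ^ 2, by linear_combination hc⟩

variable {s m n j k : ℕ} {w w' ω : ℤ} {F G : Fin 1 → Cob Laz s} {z : Cob Laz m}

theorem d_cube (x : Cob Laz s) : (3 : Cob Laz (s + 1)) ∣ Cob.d s (x ^ 3) - Cob.d s x ^ 3 := by
  rw [Cob.d_apply, Cob.d_apply]
  refine (congrArg (3 ∣ · - _) (Finset.sum_congr rfl fun i _ => ?_)).mpr (three_dvd_sum _ _)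
  rw [map_pow, smul_pow, ← pow_mul, mul_comm, pow_mul]
  rfl

theorem cw_iff : F ∈ CW 3 Laz (fun _ => 0) w s ↔ Cob.IsWt (2 * w) (F 0) :=
  ⟨fun h => by simpa using h 0, fun h c => by rw [Subsingleton.elim c 0]; simpa using h⟩

theorem bs_of_dvd (h : F ∈ CW 3 Laz (fun _ => 0) w s) (h' : 3 ∣ F 0) : F ∈ BS w s :=
  mem_sup_right (mem_QW_of_rq h fun c => rq_eq_zero_iff.2 (by
    obtain ⟨u, hu⟩ := h'
    exact ⟨u, by rw [Subsingleton.elim c 0, hu, nsmul_eq_mul, Nat.cast_ofNat]⟩))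

theorem bz : BS w s ≤ ZS w s := BQ_le_ZC (fun _ _ => Cob.isWt_zero _) mc_zero

section cube

variable (e : 3 * w = w')
include e

theorem cw_cube (h : F ∈ CW 3 Laz (fun _ => 0) w s) : F ^ 3 ∈ CW 3 Laz (fun _ => 0) w' s :=
  cw_iff.2 (P236Z.Det.isWt_cast ((cw_iff.1 h).pow 3) (by rw [← e]; push_cast; ring))

theorem zs_cube (h : F ∈ ZS w s) : F ^ 3 ∈ ZS w' s := by
  have h1 := cw_iff.1 (cw_cube e h.1)
  rw [zs_eta F] at h
  rw [zs_eta (F ^ 3)]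
  exact zs_iff.2 ⟨h1, by
    simpa using dvd_add (d_cube (F 0)) (dvd_pow (zs_iff.1 h).2 three_ne_zero)⟩

theorem cube_add (hF : F ∈ CW 3 Laz (fun _ => 0) w s) (hG : G ∈ CW 3 Laz (fun _ => 0) w s) :
    (F + G) ^ 3 - (F ^ 3 + G ^ 3) ∈ BS w' s :=
  bs_of_dvd (sub_mem (cw_cube e (add_mem hF hG)) (add_mem (cw_cube e hF) (cw_cube e hG)))
    ⟨F 0 ^ 2 * G 0 + F 0 * G 0 ^ 2, by
      simp only [Pi.sub_apply, Pi.add_apply, Pi.pow_apply]
      ring⟩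

theorem bs_cube (h : F ∈ BS w s) : F ^ 3 ∈ BS w' s := by
  obtain ⟨b, hb, u, hu, rfl⟩ := mem_BQ.1 h
  have h1 := BC_le_CW (fun _ _ => Cob.isWt_zero _) _ _ hb
  have h2 : (3 • u) ^ 3 ∈ BS w' s := bs_of_dvd (cw_cube e (nsmul_mem hu 3))
    (dvd_pow ⟨u 0, by rw [Pi.smul_apply, nsmul_eq_mul, Nat.cast_ofNat]⟩ three_ne_zero)
  rw [← sub_add_cancel ((b + 3 • u) ^ 3) (b ^ 3 + (3 • u) ^ 3)]
  refine add_mem (cube_add e h1 (nsmul_mem hu 3)) (add_mem ?_ h2)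
  rcases s with _ | s
  · rw [mem_bot.1 hb, zero_pow three_ne_zero]
    exact zero_mem _
  · obtain ⟨y, hy, rfl⟩ := hb
    have h3 : DD 0 s (y ^ 3) ∈ BS w' (s + 1) := mem_sup_left ⟨_, cw_cube e hy, rfl⟩
    rw [← sub_sub_cancel (DD 0 s (y ^ 3)) (DD 0 s y ^ 3)]
    refine sub_mem h3 (bs_of_dvd (sub_mem (bz h3).1 (cw_cube e h1)) ?_)
    rw [Pi.sub_apply, Pi.pow_apply, DD_zero, DD_zero]
    exact d_cube _

end cube

theorem lc_cube (h : m + s = n) (z : Cob Laz m) (F : Fin 1 → Cob Laz s) :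
    lc _ h z F ^ 3 = lc _ h (z ^ 3) (F ^ 3) := funext fun c => by
  simp only [Pi.pow_apply, lc_apply, cupE, mul_pow, map_pow]

variable [Fact (Nat.Prime 3)]

variable (s w k F) in
/-- the class of the cocycle `F` has level at least `k` -/
def Lv : Prop := F ∈ ZS w s ∧ ∃ y ∈ BS w s, F - y ∈ Fl p3 _ s (II 3 (ZMod 3) ^ k)

namespace Lv

theorem of (h : F ∈ ZS w s) (h' : F ∈ Fl p3 _ s (II 3 (ZMod 3) ^ k)) : Lv s k w F :=
  ⟨h, 0, zero_mem _, by rwa [sub_zero]⟩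

theorem zero (h : F ∈ ZS w s) : Lv s 0 w F := of h (by
  rw [pow_zero, Ideal.one_eq_top]
  exact mem_Fl_top p3 F)

theorem mono (h : Lv s k w F) (h' : j ≤ k) : Lv s j w F :=
  ⟨h.1, h.2.imp fun _ h => ⟨h.1, Fl_mono p3 (Ideal.pow_le_pow_right h') h.2⟩⟩

theorem add (h : Lv s k w F) (h' : Lv s k w G) : Lv s k w (F + G) := by
  obtain ⟨h1, y, hy, h2⟩ := h
  obtain ⟨h3, y', hy', h4⟩ := h'
  exact ⟨add_mem h1 h3, _, add_mem hy hy', add_sub_add_comm F G y y' ▸ add_mem h2 h4⟩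

theorem zsmul (h : Lv s k w F) (c : ℤ) : Lv s k w (c • F) := by
  obtain ⟨h1, y, hy, h2⟩ := h
  exact ⟨zsmul_mem h1 c, _, zsmul_mem hy c, smul_sub c F y ▸ zsmul_mem h2 c⟩

theorem cong (h : Lv s k w F) (h' : G - F ∈ BS w s) : Lv s k w G := by
  obtain ⟨h1, y, hy, h2⟩ := h
  exact ⟨by simpa using add_mem (bz h') h1, _, add_mem h' hy, by rwa [← sub_sub, sub_sub_cancel]⟩

theorem cube (e : 3 * w = w') (h : Lv s k w F) (hj : j ≤ k * 3) : Lv s j w' (F ^ 3) := by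
  refine mono ?_ hj
  obtain ⟨h1, y, hy, h2⟩ := h
  have h3 := sub_mem h1 (bz hy)
  have h4 := cube_add e h3.1 (bz hy).1
  rw [sub_add_cancel] at h4
  refine cong (of (zs_cube e h3) fun c => ?_) (by
    simpa [sub_add_eq_sub_sub] using add_mem h4 (bs_cube e hy))
  rw [rsP_apply, Pi.pow_apply, map_pow, pow_mul, Fil_pow]
  exact Ideal.pow_mem_pow (h2 c) 3

theorem lc (h : m + s = n) (e : ω + w = w') (hz : Lv m j ω fun _ => z) (hF : Lv s k w F) {l : ℕ}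
    (hl : l ≤ j + k) : Lv n l w' (lc _ h z F) := by
  refine mono ?_ hl
  obtain ⟨h1, x, hx, h2⟩ := hz
  obtain ⟨h3, y, hy, h4⟩ := hF
  have h5 : (fun _ => z - x 0) ∈ ZS ω m := zs_eta ((fun _ => z) - x) ▸ sub_mem h1 (bz hx)
  refine cong (of (lcZ mc_zero h h5 e (sub_mem h3 (bz hy))) (pow_add (II 3 (ZMod 3)) j k ▸
    lc_mem_Fl h (inv_II.pow k) (h2 0) h4)) ?_
  rw [map_sub, map_sub, AddMonoidHom.sub_apply, AddMonoidHom.sub_apply, sub_sub, sub_sub_cancel]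
  exact add_mem (e ▸ lc_of_BQ mc_zero h rfl hx h3)
    (by simpa using lcB mc_zero h h5 e hy)

end Lv

end Vale.Agent.P236TH

end
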