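import Vale.Agent.P236TH.T1

/-!
# P236TH / L10 : the class `v_1 θ ^ 3` is divisible by `τ ^ 8`
-/

open CategoryTheory

namespace Vale.Agent.P236TH

open Vale.Agent.P251.F Vale.Agent.P251.I Vale.Agent.P236SY Vale.Agent.P236F Vale.Agent.P236R
  Vale.Agent.P236Z Vale.Agent.P236SY.Cx Vale.Agent.P236SY.TD
open Vale.Agent.P236EL hiding cube
open Vale.Agent.P251.St (SHCat)

variable {T : SHCat} {t : Cob Laz 1} {C : Cx T}

variable (t) in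
/-- The facts about the cohomology which are used at level 10. -/
structure F10 : Prop where
  v74 : VS 20 6
  v222 : ∀ Y ∈ ZS 58 10, lc _ (show 0 + 10 = 10 from rfl) v1 Y ∈ BS 59 10
  c343 : ∀ {x c}, Grk 0 5 x c → ∀ N ∈ ZS 84 7, ∃ H ∈ ZS 82 5, ∃ K ∈ ZS 69 8,
    lb t 7 (show 2 + 7 = 9 from rfl) (lc _ (show 0 + 7 = 7 from rfl) v1 N) -
      (lb t 7 (show 2 + 7 = 9 from rfl) (lb t 5 (show 2 + 5 = 7 from rfl) H) +
        lc _ (show 1 + 8 = 9 from rfl) x K) ∈ BS 88 9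
  k267 : ∀ {x c}, Grk 0 5 x c → ∀ G ∈ ZS 70 13, lc _ (show 1 + 13 = 14 from rfl) x G ∈ BS 89 14
  k322 : ∀ F ∈ ZS 83 10, lb t 12 (show 2 + 12 = 14 from rfl)
    (lb t 10 (show 2 + 10 = 12 from rfl) F) ∈ BS 89 14 →
      ∃ G ∈ ZY t 85 10, (F - fun _ => G 2) ∈ BS 83 10
  j329 : InjJ t 86 84 15

/-- Products with two cocycles commute up to sign. -/
theorem lc_swap {J : Type} [Fintype J] {d : J → ℤ} {θ : J → J → Cob Laz 1} (hθ : MC θ)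
    {a b s k l n : ℕ} {ω ω' w w' : ℤ} {x : Cob Laz a} {y : Cob Laz b}
    (hx : (fun _ => x) ∈ ZS ω a) (hy : (fun _ => y) ∈ ZS ω' b) {F : J → Cob Laz s}
    (hF : F ∈ ZC 3 θ d w 3 s) (e₁ : b + s = k) (e₂ : a + k = n) (e₃ : a + s = l) (e₄ : b + l = n)
    (e : ω + ω' + w = w') : lc J e₂ x (lc J e₁ y F) -
      (-1 : ℤ) ^ (a * b) • lc J e₄ y (lc J e₃ x F) ∈ BQ 3 θ d w' 3 n := by
  have h1 := lc_of_BQ hθ (show a + b + s = n by omega) rfl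
    (lc_comm (ι := Fin 1) rfl rfl (add_comm b a) hx hy) hF
  rwa [Pi.sub_apply, Pi.smul_apply, lc_apply, lc_apply, map_sub, map_zsmul, AddMonoidHom.sub_apply,
    AddMonoidHom.smul_apply, lc_lc _ _ e₁ e₂, lc_lc _ _ e₃ e₄, e] at h1

theorem lc_bs {J : Type} [Fintype J] {d : J → ℤ} {θ : J → J → Cob Laz 1} (hθ : MC θ)
    {a s n : ℕ} {ω w w' : ℤ} {x : Cob Laz a} (hx : (fun _ => x) ∈ BS ω a) {F : J → Cob Laz s}
    (hF : F ∈ ZC 3 θ d w 3 s) (e₁ : a + s = n) (e : ω + w = w') :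
    lc J e₁ x F ∈ BQ 3 θ d w' 3 n := e ▸ lc_of_BQ hθ e₁ rfl hx hF

/-- The products with the class of stem 75 support no differential. -/
theorem d5_x5 (h : F10 t) {x : Cob Laz 1} {c : Cob Laz 2} (hx : Grk 0 5 x c)
    {K : Fin 1 → Cob Laz 8} (hK : K ∈ ZS 69 8) :
    C.DM 3 9 14 88 89 (lc _ (show 1 + 8 = 9 from rfl) x K) 0 := by
  obtain ⟨x', h1⟩ := (cmS (C := C)).exists_d5 (hx.zx (ω := 19) rfl) (s' := 6) (w' := 20) rfl rfl
  obtain ⟨G, h2⟩ := (cmS (C := C)).exists_d5 hK (s' := 13) (w' := 70) rfl rfl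
  rw [zs_eta x'] at h1
  have h3 := Dr.lc mc_zero h1 h2 (show 1 + 8 = 9 from rfl) (show 6 + 8 = 14 from rfl)
    (show 1 + 13 = 14 from rfl) (by decide) (v := 88) (v' := 89) rfl rfl
  have h4 := lc_bs mc_zero (h.v74 h1.cy') hK (show 6 + 8 = 14 from rfl) (w' := 89) rfl
  exact cmS.dr_right h3 (by
    rw [zero_sub]
    exact neg_mem (add_mem h4 (zsmul_mem (h.k267 hx G h2.cy') _)))

variable (P : C.CY t) (ht : IsT1 3 t) (hH : VH t) (hz : C.Z0 P.oZ 330 10) (h : F10 t)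
include ht hH hz h

/-- A cycle in the kernel of `β ^ 2` vanishes. -/
theorem bs_322 {F : Fin 1 → Cob Laz 10} (hF : C.DM 3 10 15 83 84 F 0)
    (h0 : lb t 12 (show 2 + 12 = 14 from rfl) (lb t 10 (show 2 + 10 = 12 from rfl) F) ∈ BS 89 14) :
    F ∈ BS 83 10 := by
  obtain ⟨G, hG, h1⟩ := h.k322 F hF.cy h0
  obtain ⟨G', h2⟩ := P.chY.cm.exists_d5 hG (s' := 15) (w' := 86) rfl rfl
  have h3 := cmS.d5_uniq hF (P.dr_jy h2 rfl rfl) h1
  rw [zero_sub] at h3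
  obtain ⟨x, hx⟩ := P.chY.cm.perm_of h2 (h.j329 G' h2.cy' (neg_mem_iff.1 h3)) (n := 330) rfl
    ((P.z0_Z₀ ht hH (n := 329) (s := 19) (by decide)).kill _) rfl rfl
  obtain rfl := hz x hx.dg
  have h4 := P.rep_jy hx (l := 322) rfl
  rw [Limits.zero_comp] at h4
  simpa using add_mem h1 (cmS.by_of_zero h4 (CY.cw_top hG.1 2 rfl) rfl)

/-- The differential on a class of stem 329, multiplied by `β v_1`. -/
theorem hit_322 {c : Cob Laz 2} (hc : (fun _ => c) ∈ ZS 27 2) {v : C.o C.Γ ⟶ C.oM}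
    (hv : C.E.Rep 4 0 v (C.φM C.Γ 0 v1)) {N : Fin 1 → Cob Laz 7} {S Y : Fin 1 → Cob Laz 10}
    (hS : S ∈ ZS 82 10) (hY : Y ∈ ZS 58 10)
    (d0 : C.DM 3 10 15 83 84 (lc _ (show 0 + 10 = 10 from rfl) v1 S) 0)
    (d1 : C.DM 3 7 12 84 85 N (lb t 10 (show 2 + 10 = 12 from rfl) S -
      lc _ (show 2 + 10 = 12 from rfl) c Y)) : ∃ H G, C.DM 3 5 10 82 83 H G ∧
        lc _ (show 0 + 10 = 10 from rfl) v1 S - G ∈ BS 83 10 := by
  have d2 := d1.lc_perm mc_zero hv (zs_v1 ht) rfl (show 0 + 7 = 7 from rfl)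
    (show 0 + 12 = 12 from rfl) (by decide) (v := 85) (v' := 86) rfl rfl
  rw [pow_zero, one_smul] at d2
  obtain ⟨x, c₅, hx⟩ := exists_grk 0 5
  obtain ⟨H, hH', K, hK, h3⟩ := h.c343 hx N d1.cy
  obtain ⟨G, d3⟩ := (cmS (C := C)).exists_d5 hH' (s' := 10) (w' := 83) rfl rfl
  have d4 := P.dr_lb ht mc_zero d2 (show 2 + 7 = 9 from rfl) (show 2 + 12 = 14 from rfl)
    (v := 88) (v' := 89) rfl rfl
  have d5 := P.dr_lb ht mc_zero (P.dr_lb ht mc_zero d3 (show 2 + 5 = 7 from rfl)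
    (show 2 + 10 = 12 from rfl) (v := 85) (v' := 86) rfl rfl) (show 2 + 7 = 9 from rfl)
    (show 2 + 12 = 14 from rfl) (v := 88) (v' := 89) rfl rfl
  have h4 := cmS.d5_uniq d4 (d5.add (d5_x5 h hx hK)) h3
  have h5 := lc_swap mc_zero (zs_v1 ht) (zs_bb ht) hS (show 2 + 10 = 12 from rfl)
    (show 0 + 12 = 12 from rfl) (show 0 + 10 = 10 from rfl) rfl (w' := 86) rfl
  have h6 := lc_swap mc_zero (zs_v1 ht) hc hY (show 2 + 10 = 12 from rfl)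
    (show 0 + 12 = 12 from rfl) (show 0 + 10 = 10 from rfl) rfl (w' := 86) rfl
  have h7 := lcB mc_zero (show 2 + 10 = 12 from rfl) hc (w' := 86) rfl (h.v222 Y hY)
  rw [zero_mul, pow_zero, one_smul] at h5 h6
  have h8 := sub_mem h4 (lbB ht mc_zero (show 2 + 12 = 14 from rfl) (w' := 89) rfl
    (sub_mem h5 (add_mem h6 h7)))
  refine ⟨H, G, d3, bs_322 P ht hH hz h (by simpa using d0.sub (d3.tgt rfl rfl)) ?_⟩
  refine (congrArg (· ∈ BS 89 14) ?_).mp h8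
  simp only [map_sub, map_add, add_zero]
  abel

/-- Level 10. -/
theorem l10 {c : Cob Laz 2} (hc : (fun _ => c) ∈ ZS 27 2) {θ : C.o C.Γ ⟶ C.o C.Γ}
    (hθ : C.E.Rep 106 2 θ (C.φ C.Γ 2 c))
    (h1 : lb t 4 (show 2 + 4 = 6 from rfl) (lc _ (show 2 + 2 = 4 from rfl) c fun _ => c) ∈ BS 57 6)
    (h2 : cube c ∈ BS 81 6) {v : C.o C.Γ ⟶ C.oM} (hv : C.E.Rep 4 0 v (C.φM C.Γ 0 v1)) :
    ∃ y, C.E.Dg 322 14 y ∧ θ ≫ θ ≫ θ ≫ v = y ≫ C.E.tp 8 _ := by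
  have r1 : C.E.Rep 106 2 (θ ≫ C.rd _) (C.psi (mE C.eS) 2 fun _ => c) := by
    rw [psi_eS]
    exact Chart.rep_red hθ
  have r2 := rep_pre hθ r1 (show 2 + 2 = 4 from rfl) (l := 212) rfl
  rw [Int.negOnePow_even _ (by decide), one_smul] at r2
  have r3 := rep_pre hθ r2 (show 2 + 4 = 6 from rfl) (l := 318) rfl
  rw [Int.negOnePow_even _ (by decide), one_smul] at r3
  obtain ⟨s, hs, e₁⟩ := cmS.div4 (w := 81) r3 h2 rfl
  obtain ⟨y, hy, e₂⟩ := cmS.div4 (w := 57) (P.rep_lb r2 (show 2 + 4 = 6 from rfl) (l := 222) rfl)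
    h1 rfl
  obtain ⟨S, hS, r4⟩ := cmS.exists_rep (s := 10) (w := 82) hs rfl
  obtain ⟨Y, hY, r5⟩ := cmS.exists_rep (s := 10) (w := 58) hy rfl
  have r6 := rep_pre hθ r5 (show 2 + 10 = 12 from rfl) (l := 328) rfl
  rw [Int.negOnePow_even _ (by decide), one_smul] at r6
  have r7 := (P.rep_lb r4 (show 2 + 10 = 12 from rfl) (l := 328) rfl).sub r6
  rw [← map_sub] at r7
  have h3 := sub_mem (lbZ ht mc_zero (show 2 + 10 = 12 from rfl) (w' := 85) rfl hS)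
    (lcZ mc_zero (show 2 + 10 = 12 from rfl) hc (w' := 85) rfl hY)
  obtain ⟨N, d1⟩ := cmS.dr_of_tor (k := 3) (s := 7) (w := 84) rfl rfl rfl h3 r7 (by
    rw [Preadditive.sub_comp, Category.assoc, Category.assoc, ← e₁, ← e₂,
      reassoc_of% P.β_comm θ, sub_self])
  have r8 := rep_mul hv r4 (show 0 + 10 = 10 from rfl) (l := 322) rfl
  rw [Int.negOnePow_even _ (by decide), one_smul] at r8
  have h4 := lcZ mc_zero (show 0 + 10 = 10 from rfl) (zs_v1 ht) (w' := 83) rfl hS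
  obtain ⟨H, G, d3, h9⟩ := hit_322 P ht hH hz h hc hv hS hY (dr_of_rep rfl rfl rfl h4 r8) d1
  obtain ⟨r, r9, e₃⟩ := d3.tor (m := 322) rfl
  obtain ⟨u, hu, e₄⟩ := cmS.eq_add4 (w := 83) r8 r9 h9 rfl
  have e₅ := comp_hat_comm hv.dg hs
  rw [Int.negOnePow_even _ (by decide), one_smul] at e₅
  refine ⟨u, hu, ?_⟩
  rw [← rd_hat v, reassoc_of% e₁, tp_comm, reassoc_of% e₅, reassoc_of% e₄, Preadditive.add_comp,
    e₃, zero_add, Category.assoc, ← tp_add]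

include P in
/-- The relation `v_1 θ ^ 3 = 0`. -/
theorem omega [Fact (Nat.Prime 3)] {z : Cob Laz 1} (hθ : Th t z) (hb : b3 t z ∈ BS 36 7)
    (h14 : C.L14) {x v : C.o C.Γ ⟶ C.oM} (hx : C.E.Rep 107 1 x (C.φM C.Γ 1 z))
    (hv : C.E.Rep 4 0 v (C.φM C.Γ 0 v1)) : bd tf_Γ x ≫ bd tf_Γ x ≫ bd tf_Γ x ≫ v = 0 := by
  obtain ⟨h1, c, hc, e⟩ := cy_iff.1 hθ.1
  rw [zs_eta c] at hc e
  generalize c 0 = c at hc e
  have hd : Cob.d 1 z = 3 • c := (DD_zero (fun _ : Fin 1 => z) 0).symm.trans (congrFun e 0)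
  obtain ⟨u, hu⟩ := (chart_Γ (C := C) (J := Fin 1)).rep_bd' 1 107
  have h3 := hu (m := 106) (w := 27) (by rwa [psi_eS]) h1 hc e rfl rfl
  rw [psi_un] at h3
  obtain ⟨y, hy, h4⟩ := l10 P ht hH hz h
    (zs_iff.2 ⟨cw_iff.1 hc, by rw [d_bock hd]; exact dvd_zero _⟩) h3 (t1 ht hb hc hd)
    (t2 ht z c hθ hb hc hd) hv
  rw [h14 y hy] at h4
  simpa only [Linear.units_smul_comp, Linear.comp_units_smul, smul_eq_zero_iff_eq] using h4

omit P ht hH hz h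

theorem syn_of_l14 (hA : P236K.EA) (hR : ∀ t, IsT1 3 t → FR t ∧ VH t ∧ F330 t ∧ F10 t)
    (h : ∀ (T : SHCat) (C : Cx T) (t : Cob Laz 1), IsT1 3 t → C.CY t → C.L14) :
    SYN₀ 2 := fun T C t ht => by
  have : Fact (Nat.Prime 3) := ⟨Nat.prime_three⟩
  obtain ⟨P⟩ := C.exists_cy ht
  obtain ⟨k1, k2, k3, k4⟩ := hR t ht
  obtain ⟨z, hz, hb⟩ := exists_th ht k1.ft
  obtain ⟨x, hx⟩ := P.exists_theta ht k1.van hz.1 hb
  obtain ⟨v, hv⟩ := Cx.exists_v (C := C) ht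
  obtain ⟨h1, a, m, h3, h4, h5⟩ := det_of ht (j := 2) hz.1
    (by rw [show 3 ^ (2 + 1) = 27 from rfl]; exact (mem_Fl p3).1 hz.2 0)
  exact ⟨x, v, z, a, m, h1, h3, h4, h5, hx, hv, by
    rw [omega P ht k2 (P.z0_330 ht hA k1 k2 k3) k4 hz hb (h T C t ht P) hx hv, Limits.zero_comp]⟩

/-- The final statement from facts about the cohomology and the level 14. -/
theorem full_of_l14 (hA : P236K.EA) (hR : ∀ t, IsT1 3 t → FR t ∧ VH t ∧ F330 t ∧ F10 t)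
    (h : ∀ (T : SHCat) (C : Cx T) (t : Cob Laz 1), IsT1 3 t → C.CY t → C.L14) :
    P236K.FULL := P236K.full_of_ea hA (tin_of_syn₀ (syn_of_l14 hA hR h))

end Vale.Agent.P236TH
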