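import Vale.Agent.P236TH.L10
import Vale.Agent.P236LL.Desc
import Vale.Agent.P236R.T275
import Vale.Agent.P236R.HubC
import Vale.Agent.P236F.Fr
import Vale.Agent.P236F.K272
import Vale.Agent.P236EL.Fp

/-!
# P236TH / Mid : the final statement from the remaining facts about the cohomology
-/

namespace Vale.Agent.P236TH

open Vale.Agent.P251.F Vale.Agent.P251.I Vale.Agent.P236SY Vale.Agent.P236F Vale.Agent.P236EL
open Vale.Agent.P251.St (SHCat)

theorem full_of_facts (h : ∀ t, IsT1 3 t → KF t ∧ F10 t ∧ LF t ∧ TF t)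
    (h3 : ∀ (T : SHCat) (C : Cx T) (t : Cob Laz 1), IsT1 3 t → C.CY t → VH t → R3 t C) :
    P236K.FULL :=
  full_of_l14 ea (fun t ht => ⟨fr ht, (h t ht).1.vh, f330 ht, (h t ht).2.1⟩) fun T C t ht P => by
    obtain ⟨k1, -, k2, k3⟩ := h t ht
    exact P.l14 ht k1 ea (fr ht) (fx ht) (f330 ht) k2 (P.kz ht k1
      (P.t299 ht ea (fr ht) k1.vh (hf ht)) (P.t289 ht ea (fr ht) k1.vh (hf ht))
      (P.t275 ht ea (fr ht) k1.vh (hf ht) k3)) (h3 T C t ht P k1.vh)

end Vale.Agent.P236TH
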