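import Vale.Agent.P236TH.T2

/-!
# P236TH / T1 : the product of `β_1` and the square of the Bockstein of `h_3` vanishes modulo three
-/

noncomputable section

namespace Vale.Agent.P236TH

open Vale.Agent.P251.F Vale.Agent.P251.I Vale.Agent.P236SY Vale.Agent.P236F
open Vale.Agent.P236R Vale.Agent.P236KE Vale.Agent.P236K3 Vale.Agent.P236KE.S90 AddSubgroup
open Vale.Agent.P236EL hiding cube

variable [Fact (Nat.Prime 3)] {t : Cob Laz 1} {c : Cob Laz 2}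

theorem f222 : ∀ F ∈ ZS 57 6, DD 0 6 F = 3 • 0 → Lv 6 12 57 F := by
  have H := wbS 57 (by decide)
  refine Al.all (R := rS) (T := 57) ?_
  exact H.wx.skipA (b := 10) (by decide +kernel) (H.wx.stepA [[⟨4, 0, 10, 0, 0, 1⟩]]
    (by decide +kernel) (H.wx.sd (by decide) fun _ _ h hc hx => (H.wx.ne (T := 57) (k := 9)
      (H.bock h 57 (zero_mem _) hx) (H.wx.ds_skip (by decide +kernel) le_rfl) hc (zero_mem _)).elim)
    (by decide +kernel) (H.wx.skipA (b := 12) (by decide +kernel) fun _ h _ => lv_of h))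

theorem l222 {F G : Fin 1 → Cob Laz 6} (hF : Lv 6 12 57 F) (hG : Lv 6 12 57 G)
    (h : G ∉ BS 57 6) : F ∈ zmultiples G ⊔ BS 57 6 :=
  top_line (wS 57 (by decide)) (T := 57) (k := 10) [⟨0, 0, 12, 0, 0, 1⟩, ⟨0, 9, 0, 3, 0, 2⟩,
    ⟨3, 2, 10, 0, 0, 2⟩, ⟨14, 10, 2, 0, 0, 2⟩] (by decide +kernel)
    (by decide +kernel) (Lv.rc (T := 57) hF) (Lv.rc (T := 57) hG) h

/-- a class of a detected line with value zero vanishes -/
theorem bs_of_ph {k : Type} [Field k] [CharP k 3] (R : CycRep 3 Laz k) (K : ℕ) {w : ℤ}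
    {F G : Fin 1 → Cob Laz (2 * (K + 1))} (h : F ∈ zmultiples G ⊔ BS w (2 * (K + 1)))
    (hG : G ∈ ZS w (2 * (K + 1))) (h1 : ph R (K + 1) (F 0) = 0) (h2 : ph R (K + 1) (G 0) ≠ 0) :
    F ∈ BS w (2 * (K + 1)) := by
  obtain ⟨_, hm, y, hy, rfl⟩ := mem_sup.1 h
  obtain ⟨m, rfl⟩ := mem_zmultiples_iff.1 hm
  rw [Pi.add_apply, Pi.smul_apply, map_add, map_zsmul, ph_bs R K hy] at h1
  obtain ⟨m, rfl⟩ := (CharP.intCast_eq_zero_iff k 3 m).1 (by simpa [h2] using h1)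
  rw [mul_comm _ m, mul_smul]
  exact add_mem (zsmul_mem (three_mem hG.1) m) hy

theorem lv_222 (ht : IsT1 3 t) {z : Cob Laz 1} (hc : (fun _ => c) ∈ ZS 27 2)
    (hd : Cob.d 1 z = 3 • c) : Lv 6 12 57 (c3 (bb t) c c) := by
  rw [c3]
  refine f222 _ (lbZ ht mc_zero _ (w := 54) (by norm_num) (lcZ mc_zero _ hc (by norm_num) hc)) ?_
  rw [DD_lb ht mc_zero, DD_lc mc_zero, DD_const, d_bock hd, ← Pi.zero_def]
  simp only [map_zero, AddMonoidHom.zero_apply, smul_zero, add_zero]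

/-- **the square relation** -/
theorem t1 (ht : IsT1 3 t) {z : Cob Laz 1} (hb : b3 t z ∈ BS 36 7)
    (hc : (fun _ => c) ∈ CW 3 Laz (fun _ : Fin 1 => 0) 27 2) (hd : Cob.d 1 z = 3 • c) :
    lb t 4 (show 2 + 4 = 6 from rfl) (lc _ (show 2 + 2 = 4 from rfl) c fun _ => c) ∈ BS 57 6 := by
  obtain ⟨k, _, _, κ, R, hR⟩ := exists_cyc (by decide) ht
  obtain ⟨e, h1, h2, h3, -⟩ := bock_27 ht
  have h4 : ∀ a, ph R 3 (c3 (bb t) a a 0) = lam R (bb t) * lam R a * lam R a := fun a => by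
    rw [c3, lc_apply, lc_apply, ph_three]
  have h5 : lam R e ≠ 0 := fun h => lam_Bt_ne ht κ hR 2 (by
    generalize P236K.Bt t 2 = b at h3 ⊢
    simpa [h] using lam_bs R h3)
  have h6 : ph R 3 (c3 (bb t) e e 0) ≠ 0 := by simp [h4, h5, lam_bb ht κ hR]
  have h7 := lv_222 ht h1 h2
  exact bs_of_ph R 2 (l222 (lv_222 ht (zs_iff.2 ⟨cw_iff.1 hc, by
    rw [d_bock hd]; exact dvd_zero _⟩) hd) h7 fun h => h6 (ph_bs R 2 h)) h7.1
    ((h4 c).trans (by rw [lam_theta ht κ hR hb hd, mul_zero])) h6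

end Vale.Agent.P236TH

end
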