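import Vale.Agent.P236TH.Fa
import Vale.Agent.P236TH.C3
import Vale.Agent.P236SY.Final

/-!
# P236TH / T2 : the cube of the Bockstein of `h_3` vanishes modulo three
-/

noncomputable section

namespace Vale.Agent.P236TH

open Vale.Agent.P251.F Vale.Agent.P251.I Vale.Agent.P236SY Vale.Agent.P236F
open Vale.Agent.P236R AddSubgroup
open Vale.Agent.P236EL hiding cube

variable {s m n : ℕ} {w ω w' : ℤ} {t x : Cob Laz 1} {a b c : Cob Laz 2}

theorem three_inj {F G : Fin 1 → Cob Laz s} (h : 3 • F = 3 • G) : F = G := funext fun i =>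
  P236Z.Det.three_cancel (by simpa using congrFun h i)

theorem bock_bs {F : Fin 1 → Cob Laz s} {G : Fin 1 → Cob Laz (s + 1)} (h : F ∈ BS w s)
    (hd : DD 0 s F = 3 • G) : G ∈ BS w (s + 1) := by
  obtain ⟨e, he, u, hu, rfl⟩ := mem_BQ.1 h
  have h1 : DD 0 s e = 0 := by
    rcases s with _ | s
    · rw [mem_bot.1 he, map_zero]
    · obtain ⟨y, -, rfl⟩ := he
      exact DD_DD mc_zero y
  rw [map_add, h1, zero_add, map_nsmul] at hd
  exact mem_sup_left ⟨u, hu, three_inj hd⟩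

theorem d_bock {y : Cob Laz s} {z : Cob Laz (s + 1)} (hd : Cob.d s y = 3 • z) :
    Cob.d (s + 1) z = 0 := by
  have h1 := Cob.d_d y
  rw [hd, map_nsmul, nsmul_eq_mul] at h1
  exact (mul_eq_zero.1 h1).resolve_left (by norm_num)

theorem DD_const (y : Cob Laz s) : DD 0 s (fun _ : Fin 1 => y) = fun _ => Cob.d s y :=
  funext (DD_zero _)

theorem lc_cong (h : m + s = n) (e : ω + w = w') {y y' : Cob Laz m} {F F' : Fin 1 → Cob Laz s}
    (h1 : (fun _ => y - y') ∈ BS ω m) (h2 : (fun _ => y') ∈ ZS ω m) (h3 : F - F' ∈ BS w s)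
    (h4 : F ∈ ZS w s) : lc _ h y F - lc _ h y' F' ∈ BS w' n := by
  have h5 : lc _ h (y - y') F ∈ BS w' n := e ▸ lc_of_BQ mc_zero h rfl h1 h4
  have h6 := add_mem h5 (lcB mc_zero h h2 e h3)
  rwa [map_sub, map_sub, AddMonoidHom.sub_apply, sub_add_sub_cancel] at h6

/-- the product of three cochains of degree two -/
def c3 (a b c : Cob Laz 2) : Fin 1 → Cob Laz 6 :=
  lc _ (show 2 + 4 = 6 from rfl) a (lc _ (show 2 + 2 = 4 from rfl) b fun _ => c)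

theorem comm2 (ha : (fun _ => a) ∈ ZS ω 2) (hb : (fun _ => b) ∈ ZS w 2) :
    lc _ (show 2 + 2 = 4 from rfl) a (fun _ => b) - lc _ (show 2 + 2 = 4 from rfl) b (fun _ => a) ∈
      BS (ω + w) 4 := by simpa using lc_comm (ι := Fin 1) rfl rfl rfl ha hb

section

variable (ha : (fun _ => a) ∈ ZS w 2) (hb : (fun _ => b) ∈ ZS w 2) (hc : (fun _ => c) ∈ ZS w 2)

include ha hb

include hc in
theorem c3_right : c3 a b c - c3 a c b ∈ BS (w + (w + w)) 6 :=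
  map_sub (lc _ (show 2 + 4 = 6 from rfl) a) _ _ ▸ lcB mc_zero _ ha rfl (comm2 hb hc)

include hc in
theorem c3_left : c3 a b c - c3 b a c ∈ BS (w + (w + w)) 6 := by
  have h := lc_of_BQ mc_zero (show 4 + 2 = 6 from rfl) rfl (comm2 ha hb) hc
  rwa [Pi.sub_apply, map_sub, AddMonoidHom.sub_apply, lc_apply, lc_apply,
    lc_lc _ _ (show 2 + 2 = 4 from rfl) (show 2 + 4 = 6 from rfl),
    lc_lc _ _ (show 2 + 2 = 4 from rfl) (show 2 + 4 = 6 from rfl), add_assoc] at h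

theorem cube_sum : cube (a + b) - (cube a + cube b) ∈ BS (w + (w + w)) 6 := by
  have h1 : ∀ {a b c}, (fun _ => a) ∈ ZS w 2 → (fun _ => b) ∈ ZS w 2 → (fun _ => c) ∈ ZS w 2 →
      (3 : ℤ) • c3 a b c ∈ BS (w + (w + w)) 6 := fun ha hb hc =>
    three_mem (lcZ mc_zero _ ha rfl (lcZ mc_zero _ hb rfl hc)).1
  have h2 := sub_mem (sub_mem (add_mem (h1 ha ha hb) (h1 ha hb hb)) (add_mem
    (nsmul_mem (c3_right ha ha hb) 2) (c3_left ha hb ha))) (add_mem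
      (nsmul_mem (c3_left ha hb hb) 2) (c3_right hb ha hb))
  refine (congrArg (· ∈ _) ?_).mp h2
  rw [cube, show (fun _ : Fin 1 => a + b) = (fun _ => a) + fun _ => b from rfl]
  simp only [cube, c3, map_add, AddMonoidHom.add_apply]
  abel

end

/-- the product of a cochain with the square of its Bockstein -/
def xc (x : Cob Laz 1) (c : Cob Laz 2) : Fin 1 → Cob Laz 5 :=
  lc _ (show 1 + 4 = 5 from rfl) x (lc _ (show 2 + 2 = 4 from rfl) c fun _ => c)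

theorem DD_xc (hd : Cob.d 1 x = 3 • c) : DD 0 5 (xc x c) = 3 • cube c := by
  rw [xc, DD_lc mc_zero, DD_lc mc_zero, DD_const, d_bock hd, hd, ← Pi.zero_def]
  simp only [map_zero, map_nsmul, AddMonoidHom.zero_apply, smul_zero, add_zero]
  rfl

theorem zs_cube' (hc : (fun _ => c) ∈ ZS 27 2) : cube c ∈ ZS 81 6 := by
  rw [cube]
  exact lcZ mc_zero _ hc (w := 54) (by norm_num) (lcZ mc_zero _ hc (by norm_num) hc)

variable [Fact (Nat.Prime 3)] (ht : IsT1 3 t)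

include ht

theorem lv_v1 : Lv 0 1 1 fun _ => v1 :=
  .of (zs_v1 ht) fun _ => rs_pos (zs_iff.1 (zs_v1 ht)).1 one_ne_zero

theorem lv_frob : Lv 5 16 81 (xc (t ^ 9) (P236K.Bt t 1) ^ 3) := by
  obtain ⟨u, hu, z, hz, h1⟩ := f103 ht
  obtain ⟨m, rfl⟩ := mem_zmultiples_iff.1 hz
  rw [xc]
  generalize lc _ (show 1 + 4 = 5 from rfl) (t ^ 9) _ = Y at h1 ⊢
  have h2 := zsmul_mem (lcZ mc_zero (zero_add 5) (zs_v1 ht) (w' := 27) (by norm_num) hu) m
  have h3 := cube_add (w' := 81) (by norm_num) h1.1.1 h2.1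
  rw [sub_add_cancel] at h3
  have h4 : Lv 5 5 79 (lc _ (zero_add 5) v1 (u ^ 3)) := f311 ht _ (zs_cube (by norm_num) hu)
  have h5 := f315 (Lv.lc (zero_add 5) (by norm_num) (lv_v1 ht) h4 (by omega))
  have h6 := f319 (Lv.lc (zero_add 5) (by norm_num) (lv_v1 ht) h5 (by omega))
  have h7 : Lv 5 16 81 ((m • lc _ (zero_add 5) v1 u) ^ 3) := by
    rw [smul_pow, lc_cube, lc_v_succ 2, lc_v_succ 1, pow_one]
    exact h6.zsmul _
  exact ((f319 (h1.cube (by norm_num) (by omega))).add h7).cong h3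

theorem lv_xc (h1 : (fun _ => c) ∈ ZS 27 2) (h2 : (fun _ => c - -P236K.Bt t 1 ^ 3) ∈ BS 27 2) :
    Lv 5 16 81 (xc (t ^ 27) c) := by
  have h3 : (fun _ => P236K.Bt t 1 ^ 3) ∈ ZS 27 2 := zs_cube (by norm_num) (zs_Bt ht 1 (w := 9) rfl)
  have h4 := lv_frob ht
  have h5 := zs_27 ht
  rw [xc, lc_cube, lc_cube, ← pow_mul, show (fun _ : Fin 1 => P236K.Bt t 1) ^ 3 =
    fun _ => P236K.Bt t 1 ^ 3 from rfl, show 9 * 3 = 27 from rfl] at h4
  generalize P236K.Bt t 1 ^ 3 = b at h2 h3 h4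
  generalize t ^ 27 = x at h4 h5 ⊢
  have h6 := lc_cong (show 2 + 2 = 4 from rfl) (w' := 54) (by norm_num) h2 (neg_mem h3)
    (F' := -fun _ => b) h2 h1
  rw [map_neg, map_neg, AddMonoidHom.neg_apply, neg_neg] at h6
  refine h4.cong ?_
  rw [xc, ← map_sub]
  exact lcB mc_zero _ h5 (by norm_num) h6

omit [Fact (Nat.Prime 3)] in
theorem bock_27 : ∃ c, (fun _ => c) ∈ ZS 27 2 ∧ Cob.d 1 (t ^ 27) = 3 • c ∧
    (fun _ => c + P236K.Bt t 2) ∈ BS 27 2 ∧ (fun _ => c - -P236K.Bt t 1 ^ 3) ∈ BS 27 2 := by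
  obtain ⟨-, c, h1, h2⟩ := of_zs (zs_27 ht)
  obtain ⟨r, hr⟩ := P236K.d_t1_pow ht 2
  have h3 : c + P236K.Bt t 2 = 3 * r := P236Z.Det.three_cancel (by
    rw [show 3 ^ (2 + 1) = 27 from rfl, h2, nsmul_eq_mul, Nat.cast_ofNat] at hr
    linear_combination hr)
  have h4 : (fun _ => c) ∈ ZS 27 2 := zs_iff.2 ⟨h1, by rw [d_bock h2]; exact dvd_zero _⟩
  refine ⟨c, h4, h2, bs_of_dvd (add_mem h4 (zs_Bt ht 2 rfl)).1 ⟨r, h3⟩, bs_of_dvd
    (sub_mem h4 (neg_mem (zs_cube rfl (zs_Bt ht 1 (w := 9) rfl)))).1 ?_⟩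
  rw [eq_sub_of_add_eq h3, P236K.Bt, P236K.Bt, pow_succ 3 1, pow_mul, pow_mul]
  generalize P236K.e01 t ^ 3 ^ 1 = p
  generalize P236K.e12 t ^ 3 ^ 1 = q
  exact ⟨r + p ^ 4 * q ^ 5 + p ^ 5 * q ^ 4, by ring⟩

omit [Fact (Nat.Prime 3)] in
theorem b3_bock {z : Cob Laz 1} (hb : b3 t z ∈ BS 36 7) (hd : Cob.d 1 z = 3 • c) :
    lb t 6 rfl (c3 (bb t) (bb t) c) ∈ BS 36 8 := bock_bs hb (by
  rw [b3, DD_lb ht mc_zero, DD_lb ht mc_zero, DD_lb ht mc_zero, DD_const, hd, c3, ← map_nsmul,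
    ← map_nsmul, ← map_nsmul]
  rfl)

omit ht in
theorem lam_bs {k : Type} [Field k] [CharP k 3] (R : CycRep 3 Laz k)
    (h : (fun _ => a + b) ∈ BS w 2) : lam R a + lam R b = 0 := by
  rw [← ph_one, ← ph_one]
  exact (map_add (ph R 1) a b).symm.trans (ph_bs R 0 (F := fun _ => a + b) h)

variable {k : Type} [Field k] [CharP k 3] (κ : ZMod 3 →+* k) {R : CycRep 3 Laz k}
  (hR : R.E t ![0, 1] ≠ 0)

include κ hR

omit [CharP k 3] in
theorem lam_Bt_ne (j : ℕ) : lam R (P236K.Bt t j) ≠ 0 := by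
  rw [lam_Bt R κ ht]
  exact neg_ne_zero.2 (pow_ne_zero _ hR)

theorem lam_bb : lam R (bb t) ≠ 0 := by
  rw [bb_eq, show 4 * P236K.Bt t 0 = P236K.Bt t 0 + 3 • P236K.Bt t 0 by ring, ← ph_one, map_add,
    map_nsmul, nsmul_eq_mul, CharP.cast_eq_zero, zero_mul, add_zero, ph_one]
  exact lam_Bt_ne ht κ hR 0

theorem lam_theta {z : Cob Laz 1} (hb : b3 t z ∈ BS 36 7) (hd : Cob.d 1 z = 3 • c) :
    lam R c = 0 := by
  have h1 := ph_bs R 3 (b3_bock ht hb hd)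
  rw [lc_apply, c3, lc_apply, lc_apply, ph_four] at h1
  simpa [lam_bb ht κ hR] using h1

omit κ hR in
/-- **the cube relation** -/
theorem t2 : T2 t := fun z c hz hb hc hd => by
  obtain ⟨k, _, _, κ, R, hR⟩ := exists_cyc (by decide) ht
  obtain ⟨e, h1, h2, h3, h4⟩ := bock_27 ht
  have h5 : (fun _ => c) ∈ ZS 27 2 := zs_iff.2 ⟨cw_iff.1 hc, by rw [d_bock hd]; exact dvd_zero _⟩
  have h6 : Cob.d 1 (z - t ^ 27) = 3 • (c - e) := by rw [map_sub, hd, h2, smul_sub]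
  have h0 := zs_27 ht
  have h12 : ∀ a, ph R 3 (cube a 0) = lam R a ^ 3 := fun a => by
    rw [cube, lc_apply, lc_apply, ph_three]
    ring
  have h9 : Lv 6 18 81 (cube e) := f318 (lv_xc ht h1 h4) _ (zs_cube' h1) (DD_xc h2)
  have h7 := hz.2
  replace hz := hz.1
  generalize t ^ 27 = x at h0 h6 h7
  replace h7 : Lv 1 6 27 fun _ => z - x := f107 (.of (sub_mem hz h0) h7)
  have h8 : Lv 2 5 27 fun _ => c - e := f106 h7 _ (sub_mem h5 h1) (by rw [DD_const, h6]; rfl)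
  have h10 := cube_sum h1 h8.1
  rw [add_sub_cancel] at h10
  have h11 : lam R e ≠ 0 := fun h => lam_Bt_ne ht κ hR 2 (by
    generalize P236K.Bt t 2 = b at h3 ⊢
    simpa [h] using lam_bs R h3)
  have h15 : Lv 5 16 81 (xc (z - x) (c - e)) := by
    rw [xc]
    exact Lv.lc _ (w := 54) (by norm_num) h7 (Lv.lc _ (by norm_num) h8 h8 le_rfl) (by omega)
  obtain ⟨_, hm, y, hy, h13⟩ := mem_sup.1 (l318 ((h9.add (f318 h15 _ (zs_cube' h8.1)
    (DD_xc h6))).cong h10) h9 fun h =>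
      h11 (pow_eq_zero_iff three_ne_zero |>.1 ((h12 e).symm.trans (ph_bs R 2 h))))
  obtain ⟨m, rfl⟩ := mem_zmultiples_iff.1 hm
  have h14 : ph R 3 (m • cube e 0 + y 0) = ph R 3 (cube c 0) := congrArg _ (congrFun h13 0)
  rw [map_add, map_zsmul, h12, h12, ph_bs R 2 hy, lam_theta ht κ hR hb hd] at h14
  obtain ⟨m, rfl⟩ := (CharP.intCast_eq_zero_iff k 3 m).1 (by simpa [h11] using h14)
  rw [← h13, mul_comm, mul_smul]
  exact add_mem (zsmul_mem (three_mem (zs_cube' h1).1) m) hy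

end Vale.Agent.P236TH

end
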